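import Mathlib.Algebra.BigOperators.Field
import Mathlib.Algebra.BigOperators.Ring.Finset
import Mathlib.Algebra.BigOperators.Pi
import Mathlib.Algebra.Group.Fin.Basic
import Mathlib.Algebra.Order.BigOperators.Group.Finset
import Mathlib.Algebra.Order.Ring.Abs
import Mathlib.Data.Fintype.BigOperators
import Mathlib.Data.Real.Basic
import Mathlib.Tactic.Linarith
import Mathlib.Tactic.FieldSimp
import Mathlib.Tactic.Ring

/-! Uniform colourings of a finite set: coincidence indicators of distinct pairs are uncorrelated. -/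

namespace Vale.Agent.P078

open Finset

variable {n r : ℕ} [NeZero r]

/-- The centred coincidence indicator. -/
noncomputable def coin (col : Fin n → Fin r) (p : Fin n × Fin n) : ℝ :=
  if p.1 = p.2 then 0 else (if col p.1 = col p.2 then 1 else 0) - 1 / (r : ℝ)

lemma abs_coin_le (col : Fin n → Fin r) (p : Fin n × Fin n) : |coin col p| ≤ 1 := by
  have hr : (1 : ℝ) ≤ r := by exact_mod_cast NeZero.one_le
  have h1 : 0 ≤ 1 / (r : ℝ) := by positivity
  have h2 : 1 / (r : ℝ) ≤ 1 := (div_le_one (by linarith)).2 hr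
  simp only [coin]
  split_ifs <;> rw [abs_le] <;> constructor <;> linarith

lemma coin_swap (col : Fin n → Fin r) (p : Fin n × Fin n) : coin col p.swap = coin col p := by
  simp only [coin, Prod.fst_swap, Prod.snd_swap, eq_comm]

lemma sum_shift {G : Type*} [AddGroup G] [Fintype G] (f : G → ℝ) (c : G) :
    ∑ x, f (x + c) = ∑ x, f x :=
  Equiv.sum_comp (Equiv.addRight c) f

lemma coin_shift_other {p q : Fin n × Fin n} (h1 : p.1 ≠ q.1) (h2 : p.1 ≠ q.2)
    (col : Fin n → Fin r) (a : Fin r) : coin (col + Pi.single p.1 a) q = coin col q := by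
  unfold coin
  rw [Pi.add_apply, Pi.add_apply, Pi.single_eq_of_ne (Ne.symm h1), Pi.single_eq_of_ne (Ne.symm h2),
    add_zero, add_zero]

lemma sum_coin_shift_self {p : Fin n × Fin n} (hp : p.1 ≠ p.2) (col : Fin n → Fin r) :
    ∑ a : Fin r, coin (col + Pi.single p.1 a) p = 0 := by
  have hr : (r : ℝ) ≠ 0 := NeZero.ne _
  have e2 : ∀ a : Fin r, coin (col + Pi.single p.1 a) p
      = (if a = col p.2 - col p.1 then 1 else 0) - 1 / (r : ℝ) := fun a => by
    unfold coin
    rw [if_neg hp, Pi.add_apply, Pi.add_apply, Pi.single_eq_same,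
      Pi.single_eq_of_ne (Ne.symm hp), add_zero]
    congr 1
    exact if_congr eq_sub_iff_add_eq'.symm rfl rfl
  rw [Finset.sum_congr rfl fun a _ => e2 a, Finset.sum_sub_distrib, Finset.sum_ite_eq',
    if_pos (Finset.mem_univ _), Finset.sum_const, Finset.card_univ, Fintype.card_fin, nsmul_eq_mul,
    mul_one_div, div_self hr, sub_self]

lemma sum_coin_mul_eq_zero_aux {p q : Fin n × Fin n} (h1 : p.1 ≠ q.1) (h2 : p.1 ≠ q.2) :
    ∑ col : Fin n → Fin r, coin col p * coin col q = 0 := by
  by_cases hp : p.1 = p.2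
  · refine Finset.sum_eq_zero fun col _ => ?_
    rw [coin, if_pos hp, zero_mul]
  have key : ∑ _a : Fin r, ∑ col : Fin n → Fin r, coin col p * coin col q = 0 := by
    rw [Finset.sum_congr rfl fun a _ => (sum_shift (fun col : Fin n → Fin r =>
      coin col p * coin col q) (Pi.single p.1 a)).symm, Finset.sum_comm]
    refine Finset.sum_eq_zero fun col _ => ?_
    rw [Finset.sum_congr rfl fun a _ => by rw [coin_shift_other h1 h2 col a], ← Finset.sum_mul,
      sum_coin_shift_self hp col, zero_mul]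
  rw [Finset.sum_const, Finset.card_univ, Fintype.card_fin, nsmul_eq_mul] at key
  exact (mul_eq_zero.1 key).resolve_left (NeZero.ne _)

lemma sum_coin_mul_eq_zero {p q : Fin n × Fin n} (h1 : q ≠ p) (h2 : q ≠ p.swap) :
    ∑ col : Fin n → Fin r, coin col p * coin col q = 0 := by
  by_cases hp : p.1 = p.2
  · simp [coin, hp]
  by_cases ha : p.1 ≠ q.1 ∧ p.1 ≠ q.2
  · exact sum_coin_mul_eq_zero_aux ha.1 ha.2
  by_cases hb : p.2 ≠ q.1 ∧ p.2 ≠ q.2
  · rw [← sum_coin_mul_eq_zero_aux (r := r) (p := p.swap) (q := q) hb.1 hb.2]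
    simp [coin_swap]
  simp only [not_and_or, not_not] at ha hb
  rcases ha with ha | ha <;> rcases hb with hb | hb
  · exact absurd (ha.trans hb.symm) hp
  · exact absurd (Prod.ext ha.symm hb.symm) h1
  · exact absurd (Prod.ext hb.symm ha.symm) h2
  · exact absurd (ha.trans hb.symm) hp

theorem sum_sq_coin_le (m : Fin n × Fin n → ℝ) :
    ∑ col : Fin n → Fin r, (∑ p, coin col p * m p) ^ 2
      ≤ 2 * (Fintype.card (Fin n → Fin r)) * ∑ p, m p ^ 2 := by
  set N : ℝ := (Fintype.card (Fin n → Fin r) : ℝ)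
  have hG : ∀ p q, |∑ col : Fin n → Fin r, coin col p * coin col q| ≤ N := fun p q => by
    refine (abs_sum_le_sum_abs _ _).trans ?_
    refine (Finset.sum_le_card_nsmul _ _ 1 fun col _ => ?_).trans (by simp [N])
    rw [abs_mul]
    exact mul_le_one₀ (abs_coin_le col p) (abs_nonneg _) (abs_coin_le col q)
  have hterm : ∀ p q, m p * m q * ∑ col : Fin n → Fin r, coin col p * coin col q
      ≤ (if q = p then N * m p ^ 2 else 0)
        + (if q = p.swap then N * ((m p ^ 2 + m p.swap ^ 2) / 2) else 0) := by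
    intro p q
    have hN : 0 ≤ N := Nat.cast_nonneg _
    have hnn : 0 ≤ N * ((m p ^ 2 + m p.swap ^ 2) / 2) := by positivity
    by_cases h1 : q = p
    · subst h1
      have := (abs_le.1 (hG q q)).2
      rw [if_pos rfl]
      split <;> nlinarith [sq_nonneg (m q), mul_self_nonneg (m q)]
    by_cases h2 : q = p.swap
    · subst h2
      rw [if_neg h1, if_pos rfl, zero_add]
      refine (le_abs_self _).trans ?_
      rw [abs_mul]
      refine (mul_le_mul_of_nonneg_left (hG _ _) (abs_nonneg _)).trans ?_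
      rw [mul_comm N]
      refine mul_le_mul_of_nonneg_right ?_ hN
      rw [abs_le]
      constructor <;> nlinarith [sq_nonneg (m p - m p.swap), sq_nonneg (m p + m p.swap)]
    rw [if_neg h1, if_neg h2, sum_coin_mul_eq_zero h1 h2, mul_zero, zero_add]
  have e : ∑ col : Fin n → Fin r, (∑ p, coin col p * m p) ^ 2
      = ∑ p, ∑ q, m p * m q * ∑ col : Fin n → Fin r, coin col p * coin col q := by
    simp only [sq, Finset.sum_mul_sum]
    rw [Finset.sum_comm]
    refine Finset.sum_congr rfl fun p _ => ?_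
    rw [Finset.sum_comm]
    refine Finset.sum_congr rfl fun q _ => ?_
    rw [Finset.mul_sum]
    exact Finset.sum_congr rfl fun col _ => by ring
  rw [e]
  refine (Finset.sum_le_sum fun p _ => Finset.sum_le_sum fun q _ => hterm p q).trans (le_of_eq ?_)
  simp only [Finset.sum_add_distrib, Finset.sum_ite_eq', Finset.mem_univ, if_true]
  have hsw : ∑ p : Fin n × Fin n, m p.swap ^ 2 = ∑ p, m p ^ 2 :=
    Equiv.sum_comp (Equiv.prodComm _ _) (fun p : Fin n × Fin n => m p ^ 2)
  rw [← Finset.mul_sum, ← Finset.mul_sum, ← Finset.sum_div, Finset.sum_add_distrib, hsw]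
  ring

end Vale.Agent.P078
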