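import Mathlib.Analysis.InnerProductSpace.Adjoint
import Mathlib.Algebra.Star.Subalgebra

/-! Strong-operator paving over maximal abelian subalgebras of `B(H)`. -/

namespace Vale.Agent.P078

variable {H : Type*} [NormedAddCommGroup H] [InnerProductSpace ℂ H] [CompleteSpace H]

/-- A maximal abelian self-adjoint subalgebra of `B(H)`. -/
def IsMasa (A : StarSubalgebra ℂ (H →L[ℂ] H)) : Prop :=
  Maximal (fun B : StarSubalgebra ℂ (H →L[ℂ] H) => ∀ x ∈ B, ∀ y ∈ B, x * y = y * x) A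

/-- No minimal projection. -/
def IsDiffuse (A : StarSubalgebra ℂ (H →L[ℂ] H)) : Prop :=
  ∀ p ∈ A, IsStarProjection p → p ≠ 0 →
    ∃ e ∈ A, IsStarProjection e ∧ e ≠ 0 ∧ e ≠ p ∧ p * e = e

/-- `x` is `(ε, r)` so-pavable over `A` inside `B(H)`. -/
def SoPavable (A : StarSubalgebra ℂ (H →L[ℂ] H)) (x : H →L[ℂ] H) (ε : ℝ) (r : ℕ) : Prop :=
  ∀ (F : Finset H) (δ : ℝ), 0 < δ →
    ∃ (p : Fin r → H →L[ℂ] H) (a q : H →L[ℂ] H),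
      (∀ i, p i ∈ A ∧ IsStarProjection (p i)) ∧ (∀ i j, i ≠ j → p i * p j = 0) ∧ ∑ i, p i = 1 ∧
      a ∈ A ∧ IsSelfAdjoint a ∧ ‖a‖ ≤ ‖x‖ ∧ IsStarProjection q ∧
      (∀ ξ ∈ F, ‖(1 - q) ξ‖ < δ) ∧
      ‖q * (∑ i, p i * x * p i - a) * q‖ ≤ ε * ‖x‖

end Vale.Agent.P078
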