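import Mathlib.Analysis.CStarAlgebra.ContinuousLinearMap
import Mathlib.Analysis.CStarAlgebra.ContinuousFunctionalCalculus.Basic
import Mathlib.Analysis.CStarAlgebra.ContinuousFunctionalCalculus.Commute
import Mathlib.Analysis.CStarAlgebra.ContinuousFunctionalCalculus.Isometric
import Mathlib.Analysis.InnerProductSpace.Projection.Basic
import Vale.Agent.P078.Defs

/-! Projections of a maximal abelian subalgebra of `B(H)`. -/

namespace Vale.Agent.P078

open Filter Topology

variable {H : Type*} [NormedAddCommGroup H] [InnerProductSpace ℂ H] [CompleteSpace H]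
  {A : StarSubalgebra ℂ (H →L[ℂ] H)}

lemma IsMasa.comm (hA : IsMasa A) {x y : H →L[ℂ] H} (hx : x ∈ A) (hy : y ∈ A) :
    x * y = y * x := hA.prop x hx y hy

lemma IsMasa.mem_of_comm_sa (hA : IsMasa A) {h : H →L[ℂ] H} (hh : IsSelfAdjoint h)
    (hc : ∀ y ∈ A, h * y = y * h) : h ∈ A := by
  set S : Set (H →L[ℂ] H) := insert h (A : Set (H →L[ℂ] H))
  have hS : ∀ a ∈ S, ∀ b ∈ S, a * b = b * a := by
    rintro a (rfl | ha) b (rfl | hb)
    · rfl
    · exact hc b hb
    · exact (hc a ha).symm
    · exact hA.comm ha hb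
  have hS' : ∀ a ∈ S, star a ∈ S := by
    rintro a (rfl | ha)
    · exact Or.inl hh.star_eq
    · exact Or.inr (star_mem ha)
  have := StarAlgebra.isMulCommutative_adjoin ℂ hS fun a ha b hb => hS a ha _ (hS' b hb)
  refine hA.2 (y := StarAlgebra.adjoin ℂ S) (fun a ha b hb =>
    congrArg Subtype.val (mul_comm' (⟨a, ha⟩ : StarAlgebra.adjoin ℂ S) ⟨b, hb⟩))
    (fun a ha => StarAlgebra.subset_adjoin ℂ S (Or.inr ha))
    (StarAlgebra.subset_adjoin ℂ S (Or.inl rfl))

/-- `A` is its own commutant. -/
lemma IsMasa.mem_of_comm (hA : IsMasa A) {T : H →L[ℂ] H}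
    (hc : ∀ y ∈ A, T * y = y * T) : T ∈ A := by
  have hs : ∀ y ∈ A, star T * y = y * star T := fun y hy => by
    have := congrArg star (hc _ (star_mem hy))
    rwa [star_mul, star_mul, star_star, eq_comm] at this
  have h1 : T + star T ∈ A := hA.mem_of_comm_sa (IsSelfAdjoint.add_star_self T) fun y hy => by
    rw [add_mul, mul_add, hc y hy, hs y hy]
  have h2 : Complex.I • (T - star T) ∈ A := hA.mem_of_comm_sa (by
    rw [IsSelfAdjoint, star_smul, star_sub, star_star, Complex.star_def, Complex.conj_I]
    module) fun y hy => by rw [smul_mul_assoc, mul_smul_comm, sub_mul, mul_sub, hc y hy, hs y hy]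
  have e : T = (2 : ℂ)⁻¹ • ((T + star T) + (-Complex.I) • (Complex.I • (T - star T))) := by
    rw [smul_smul, neg_mul, Complex.I_mul_I, neg_neg, one_smul]
    module
  rw [e]
  exact A.smul_mem (add_mem h1 (A.smul_mem h2 _)) _

lemma proj_apply (e : H →L[ℂ] H) (he : IsStarProjection e) (v : H) : e (e v) = e v :=
  ContinuousLinearMap.ext_iff.1 he.isIdempotentElem.eq v

lemma norm_sq_add {c d : H →L[ℂ] H} (hc : IsStarProjection c) (h : c * d = 0) (v w : H) :
    ‖c v + d w‖ ^ 2 = ‖c v‖ ^ 2 + ‖d w‖ ^ 2 := by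
  have h0 : inner ℂ (c v) (d w) = (0 : ℂ) := by
    have e := hc.isSelfAdjoint.isSymmetric v (d w)
    simp only [ContinuousLinearMap.coe_coe] at e
    rw [e, show c (d w) = 0 from ContinuousLinearMap.ext_iff.1 h w, inner_zero_right]
  rw [sq, sq, sq]
  exact norm_add_sq_eq_norm_sq_add_norm_sq_of_inner_eq_zero _ _ h0

lemma norm_sq_split {e f : H →L[ℂ] H} (hf : IsStarProjection f) (h : f * e = f) (v : H) :
    ‖e v‖ ^ 2 = ‖f v‖ ^ 2 + ‖(e - f) v‖ ^ 2 := by
  rw [← norm_sq_add hf (d := e - f) (by rw [mul_sub, h, hf.isIdempotentElem.eq, sub_self]) v v]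
  simp

lemma norm_proj_apply_le {e : H →L[ℂ] H} (he : IsStarProjection e) (v : H) : ‖e v‖ ≤ ‖v‖ := by
  have h := norm_sq_split (e := 1) he (mul_one e) v
  rw [one_apply_eq_self] at h
  exact pow_le_pow_iff_left₀ (norm_nonneg _) (norm_nonneg _) two_ne_zero |>.1
    (by nlinarith [sq_nonneg ‖(1 - e) v‖])

/-- An invariant closed subspace gives a projection in `A`. -/
lemma IsMasa.exists_proj (hA : IsMasa A) (K : Submodule ℂ H) (hK : IsClosed (K : Set H))
    (hinv : ∀ y ∈ A, ∀ v ∈ K, y v ∈ K) :
    ∃ e ∈ A, IsStarProjection e ∧ (∀ v, e v ∈ K) ∧ ∀ v ∈ K, e v = v := by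
  have : CompleteSpace K := hK.completeSpace_coe
  refine ⟨K.starProjection, hA.mem_of_comm fun y hy => ?_, isStarProjection_starProjection,
    K.starProjection_apply_mem, fun v hv => Submodule.starProjection_eq_self_iff.2 hv⟩
  ext v
  refine Submodule.eq_starProjection_of_mem_of_inner_eq_zero (u := y v)
    (hinv y hy _ (K.starProjection_apply_mem v)) fun w hw => ?_
  rw [mul_apply_eq_comp, ← map_sub, ← ContinuousLinearMap.adjoint_inner_right,
    ← ContinuousLinearMap.star_eq_adjoint]
  exact Submodule.starProjection_inner_eq_zero v _ (hinv _ (star_mem hy) w hw)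

/-- The support of a vector. -/
lemma IsMasa.exists_support (hA : IsMasa A) (ξ : H) :
    ∃ e ∈ A, IsStarProjection e ∧ e ξ = ξ ∧
      ∀ f ∈ A, f * e = f → f ξ = 0 → f = 0 := by
  set K := (Submodule.span ℂ {v | ∃ y ∈ A, y ξ = v}).topologicalClosure with hK
  have hsub : ∀ y ∈ A, y ξ ∈ K := fun y hy =>
    Submodule.le_topologicalClosure _ (Submodule.subset_span ⟨y, hy, rfl⟩)
  have hinv : ∀ y ∈ A, ∀ v ∈ K, y v ∈ K := fun y hy v hv => by
    refine map_mem_closure y.continuous hv fun w hw => ?_
    induction hw using Submodule.span_induction with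
    | mem w hw =>
      obtain ⟨z, hz, rfl⟩ := hw
      exact Submodule.subset_span ⟨y * z, mul_mem hy hz, rfl⟩
    | zero => simp
    | add a b _ _ ha hb => rw [map_add]; exact add_mem ha hb
    | smul c a _ ha => rw [map_smul]; exact Submodule.smul_mem _ c ha
  obtain ⟨e, heA, he, hmem, hfix⟩ := hA.exists_proj K (Submodule.isClosed_topologicalClosure _) hinv
  refine ⟨e, heA, he, hfix ξ ?_, fun f hf hfe hfξ => ?_⟩
  · simpa using hsub 1 (one_mem A)
  have h0 : ∀ w ∈ K, f w = 0 := by
    intro w hw
    refine (isClosed_eq (f := fun v => f v) (g := fun _ => (0 : H)) f.continuous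
      continuous_const).closure_subset_iff.2 (fun v hv => ?_) hw
    induction hv using Submodule.span_induction with
    | mem w hw =>
      obtain ⟨z, hz, rfl⟩ := hw
      show f (z ξ) = 0
      rw [← mul_apply_eq_comp, hA.comm hf hz, mul_apply_eq_comp, hfξ, map_zero]
    | zero => simp
    | add a b _ _ ha hb => simp_all
    | smul c a _ ha => simp_all
  rw [← hfe]
  ext v
  exact h0 _ (hmem v)

/-- An operator which commutes with all projections of `A` lies in `A`. -/
lemma IsMasa.mem_of_comm_proj (hA : IsMasa A) {T : H →L[ℂ] H}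
    (hT : ∀ e ∈ A, IsStarProjection e → T * e = e * T) : T ∈ A := by
  suffices hsa : ∀ y ∈ A, IsSelfAdjoint y → T * y = y * T by
    refine hA.mem_of_comm fun y hy => ?_
    have h1 := hsa _ (add_mem hy (star_mem hy)) (IsSelfAdjoint.add_star_self y)
    have h2 := hsa _ (A.smul_mem (sub_mem hy (star_mem hy)) Complex.I) (by
      rw [IsSelfAdjoint, star_smul, star_sub, star_star, Complex.star_def, Complex.conj_I]
      module)
    rw [mul_smul_comm, smul_mul_assoc] at h2
    have h3 := smul_right_injective (H →L[ℂ] H) Complex.I_ne_zero h2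
    rw [mul_sub, sub_mul] at h3
    rw [mul_add, add_mul] at h1
    have h4 : (2 : ℂ) • (T * y) = (2 : ℂ) • (y * T) := by
      calc (2 : ℂ) • (T * y) = T * y + T * star y + (T * y - T * star y) := by module
        _ = y * T + star y * T + (y * T - star y * T) := by rw [h1, h3]
        _ = _ := by module
    exact smul_right_injective (H →L[ℂ] H) two_ne_zero h4
  intro y hy hys
  have hcfc : ∀ f : ℝ → ℝ, cfc f y ∈ A := fun f => hA.mem_of_comm fun z hz =>
    (Commute.cfc_real (show Commute y z from hA.comm hy hz) f).eq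
  have hex : ∀ t : ℝ, ∃ e ∈ A, IsStarProjection e ∧
      (e * cfc (fun s => max (s - t) 0) y = cfc (fun s => max (s - t) 0) y) ∧
      ∀ g : ℝ → ℝ, Continuous g → (∀ s, t ≤ s → g s = 0) → cfc g y * e = 0 := by
    intro t
    set P := cfc (fun s => max (s - t) 0) y with hP
    set K := P.range.topologicalClosure with hK
    obtain ⟨e, heA, he, hmem, hfix⟩ := hA.exists_proj K (Submodule.isClosed_topologicalClosure _)
      fun z hz v hv => by
        refine map_mem_closure z.continuous hv ?_
        rintro _ ⟨w, rfl⟩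
        exact ⟨z w, ContinuousLinearMap.ext_iff.1 (hA.comm (hcfc _) hz) w⟩
    refine ⟨e, heA, he, ?_, fun g hg hg0 => ?_⟩
    · ext v
      exact hfix _ (Submodule.le_topologicalClosure _ ⟨v, rfl⟩)
    · have h0 : cfc g y * P = 0 := by
        rw [hP, ← cfc_mul g _ y, ← cfc_zero ℝ y]
        refine cfc_congr fun s _ => ?_
        rcases le_total t s with h | h
        · simp [hg0 s h]
        · simp [max_eq_right (sub_nonpos.2 h)]
      ext v
      refine (isClosed_eq (f := fun u => cfc g y u) (g := fun _ => (0 : H)) (cfc g y).continuous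
        continuous_const).closure_subset_iff.2 ?_ (hmem v)
      rintro _ ⟨w, rfl⟩
      exact ContinuousLinearMap.ext_iff.1 h0 w
  choose E hEA hE hEp hEg using hex
  refine sub_eq_zero.1 (norm_le_zero_iff.1 (le_of_forall_pos_le_add fun η hη => ?_))
  -- staircase approximation
  set M := ‖y‖
  set h := η / (2 * ‖T‖ + 1) with hh
  have hh0 : 0 < h := by positivity
  obtain ⟨N, hN⟩ := exists_nat_ge ((2 * M + 1) / h)
  set t : ℕ → ℝ := fun i => -M + i * h with ht
  set k : ℕ → ℝ → ℝ := fun i s => max (s - t i) 0 - max (s - t (i + 1)) 0 with hk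
  have hkc : ∀ i, Continuous (k i) := fun i => by simp only [hk]; fun_prop
  have ht1 : ∀ i, t (i + 1) = t i + h := fun i => by simp only [ht]; push_cast; ring
  have hkb : ∀ i s, 0 ≤ k i s ∧ k i s ≤ h := fun i s => by
    have := ht1 i
    simp only [hk]
    rcases le_total (s - t i) 0 with a | a <;> rcases le_total (s - t (i + 1)) 0 with b | b <;>
      simp only [a, b, max_eq_left, max_eq_right] <;> constructor <;> linarith
  set g : ℕ → H →L[ℂ] H := fun i => E (t i) - E (t (i + 1)) with hg
  have hsum : y + M • 1 = ∑ i ∈ Finset.range N, cfc (k i) y := by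
    rw [← cfc_sum k y (Finset.range N) (fun i _ => (hkc i).continuousOn)]
    rw [← cfc_id' ℝ y, ← Algebra.algebraMap_eq_smul_one, ← cfc_const M y, ← cfc_add y _ _,
      cfc_id' ℝ y]
    refine cfc_congr fun s hs => ?_
    have hs' : |s| ≤ M := by
      refine ((Real.norm_eq_abs s).symm.le.trans (spectrum.norm_le_norm_mul_of_mem hs)).trans ?_
      exact mul_le_of_le_one_right (norm_nonneg _) ContinuousLinearMap.norm_id_le
    have hN' : 2 * M + 1 ≤ N * h := (div_le_iff₀ hh0).1 hN
    rw [abs_le] at hs'
    simp only [hk, Finset.sum_apply]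
    rw [Finset.sum_range_sub' (fun i => max (s - t i) 0)]
    simp only [ht, Nat.cast_zero, zero_mul, add_zero]
    rw [max_eq_left (by linarith), max_eq_right (by linarith)]
    ring
  set D : ℕ → H →L[ℂ] H := fun i => cfc (k i) y - h • E (t (i + 1)) with hD
  have hki : ∀ i, E (t i) * cfc (k i) y = cfc (k i) y := by
    intro i
    have h1 := hEp (t i)
    have hle : E (t i) * cfc (fun s => max (s - t (i + 1)) 0) y
        = cfc (fun s => max (s - t (i + 1)) 0) y := by
      have e : (fun s => max (s - t (i + 1)) 0) = fun s =>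
          max (s - t i) 0 * (max (s - t (i + 1)) 0 / max (s - t i) h) := by
        funext s
        have := ht1 i
        rcases le_total s (t (i + 1)) with a | a
        · simp [max_eq_right (sub_nonpos.2 a)]
        · rw [max_eq_left (by linarith : 0 ≤ s - t i), max_eq_left (by linarith : h ≤ s - t i)]
          field_simp [(show (s - t i) ≠ 0 by linarith)]
      have hc2 : Continuous fun s => max (s - t (i + 1)) 0 / max (s - t i) h :=
        Continuous.div (by fun_prop) (by fun_prop)
          fun s => (lt_of_lt_of_le hh0 (le_max_right _ _)).ne'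
      rw [e, cfc_mul (fun s => max (s - t i) 0)
        (fun s => max (s - t (i + 1)) 0 / max (s - t i) h) y (by fun_prop) hc2.continuousOn,
        ← mul_assoc, h1]
    simp only [hk]
    rw [cfc_sub (fun s => max (s - t i) 0) (fun s => max (s - t (i + 1)) 0) y, mul_sub, h1, hle]
  have hkE : ∀ i, cfc (k i) y * E (t (i + 1)) = h • E (t (i + 1)) := by
    intro i
    have h0 := hEg (t (i + 1)) (fun s => k i s - h) ((hkc i).sub continuous_const) fun s hs => by
      have := ht1 i
      simp only [hk]
      rw [max_eq_left (by linarith), max_eq_left (by linarith)]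
      linarith
    rw [cfc_sub (k i) (fun _ => h) y, cfc_const h y, sub_mul, sub_eq_zero,
      Algebra.algebraMap_eq_smul_one, smul_mul_assoc, one_mul] at h0
    exact h0
  have hEE : ∀ i j, i ≤ j → E (t i) * E (t j) = E (t j) := by
    intro i j hij
    induction hij with
    | refl => exact (hE _).isIdempotentElem.eq
    | @step j _ ih =>
      have h1 : E (t j) * E (t (j + 1)) = E (t (j + 1)) := by
        refine smul_right_injective (H →L[ℂ] H) hh0.ne' ?_
        show h • _ = h • _
        rw [← mul_smul_comm, ← hkE, ← mul_assoc, hki]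
      rw [← h1, ← mul_assoc, ih]
  have hgo : ∀ i, D i = g i * (cfc (k i) y) * g i := by
    intro i
    have c1 := hA.comm (hcfc (k i)) (hEA (t i))
    have c2 := hA.comm (hEA (t (i + 1))) (hEA (t i))
    have e1 := hEE i (i + 1) (Nat.le_succ i)
    simp only [hD, hg, sub_mul, mul_sub, hki, hkE, c1, mul_assoc,
      (hE (t (i + 1))).isIdempotentElem.eq, hA.comm (hEA (t (i + 1))) (hcfc (k i)), c2, e1,
      smul_mul_assoc, mul_smul_comm]
    module
  have hgP : ∀ i, IsStarProjection (g i) := fun i =>
    (hE _).sub_of_mul_eq_right (hE _) (hEE i (i + 1) (Nat.le_succ i))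
  have hgo2 : ∀ i j, i < j → g i * g j = 0 := by
    intro i j hij
    have a1 := hEE i j hij.le
    have a2 := hEE i (j + 1) (by omega)
    have a3 := hEE (i + 1) j (by omega)
    have a4 := hEE (i + 1) (j + 1) (by omega)
    simp only [hg, sub_mul, mul_sub, a1, a2, a3, a4]
    abel
  have hDn : ‖∑ i ∈ Finset.range N, D i‖ ≤ h := by
    refine ContinuousLinearMap.opNorm_le_bound _ hh0.le fun v => ?_
    have key : ∀ n, ‖(∑ i ∈ Finset.range n, D i) v‖ ^ 2
        ≤ h ^ 2 * ∑ i ∈ Finset.range n, ‖g i v‖ ^ 2 ∧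
        ∀ j, n ≤ j → g j * (∑ i ∈ Finset.range n, D i) = 0 := by
      intro n
      induction n with
      | zero => simp
      | succ n ih =>
        refine ⟨?_, fun j hj => ?_⟩
        · rw [Finset.sum_range_succ, Finset.sum_range_succ, add_apply, add_comm,
            hgo n, mul_apply_eq_comp, mul_apply_eq_comp,
            norm_sq_add (hgP n) (ih.2 n le_rfl)]
          have h1 := norm_proj_apply_le (hgP n) (cfc (k n) y (g n v))
          have h2 := (cfc (k n) y).le_opNorm (g n v)
          have h3 : ‖cfc (k n) y‖ ≤ h := norm_cfc_le hh0.le fun s _ => by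
            rw [Real.norm_eq_abs, abs_of_nonneg (hkb n s).1]; exact (hkb n s).2
          have h4 := pow_le_pow_left₀ (norm_nonneg _)
            (h1.trans (h2.trans (mul_le_mul_of_nonneg_right h3 (norm_nonneg _)))) 2
          linarith [ih.1]
        · rw [Finset.sum_range_succ, mul_add, ih.2 j (by omega), zero_add, hgo n, mul_assoc,
            ← mul_assoc, hA.comm (sub_mem (hEA _) (hEA _)) (sub_mem (hEA _) (hEA _)),
            hgo2 n j (by omega), zero_mul]
    have tel : ∀ n, ∑ i ∈ Finset.range n, ‖g i v‖ ^ 2 = ‖E (t 0) v‖ ^ 2 - ‖E (t n) v‖ ^ 2 := by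
      intro n
      induction n with
      | zero => simp
      | succ n ih =>
        have := norm_sq_split (e := E (t n)) (hE (t (n + 1))) (by
          rw [hA.comm (hEA _) (hEA _), hEE n (n + 1) (Nat.le_succ n)]) v
        rw [Finset.sum_range_succ, ih]
        simp only [hg]
        linarith
    refine pow_le_pow_iff_left₀ (norm_nonneg _) (by positivity) two_ne_zero |>.1
      ((key N).1.trans ?_)
    rw [tel, mul_pow]
    refine mul_le_mul_of_nonneg_left ?_ (sq_nonneg _)
    have := pow_le_pow_left₀ (norm_nonneg _) (norm_proj_apply_le (hE (t 0)) v) 2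
    nlinarith [sq_nonneg ‖E (t N) v‖]
  set S := ∑ i ∈ Finset.range N, h • E (t (i + 1)) - M • (1 : H →L[ℂ] H) with hSdef
  have hy' : y = ∑ i ∈ Finset.range N, D i + S := by
    simp only [hD, hSdef, Finset.sum_sub_distrib, ← hsum]
    abel
  have hcomm : T * S = S * T := by
    simp only [hSdef, mul_sub, sub_mul, Finset.mul_sum, Finset.sum_mul, mul_smul_comm,
      smul_mul_assoc, mul_one, one_mul, hT _ (hEA _) (hE _)]
  have e : T * y - y * T
      = T * ∑ i ∈ Finset.range N, D i - (∑ i ∈ Finset.range N, D i) * T := by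
    rw [hy', mul_add, add_mul, hcomm]
    abel
  rw [e, zero_add]
  calc ‖T * _ - _ * T‖ ≤ ‖T‖ * h + h * ‖T‖ :=
        (norm_sub_le _ _).trans (add_le_add ((norm_mul_le _ _).trans (by gcongr))
          ((norm_mul_le _ _).trans (by gcongr)))
    _ ≤ η := by
        rw [hh, ← mul_div_assoc, div_mul_eq_mul_div, ← add_div, div_le_iff₀ (by positivity)]
        nlinarith [norm_nonneg T]

end Vale.Agent.P078
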