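import Mathlib.Data.Fin.Tuple.Basic
import Vale.Agent.P078.Masa

/-! Fine partitions in a diffuse maximal abelian subalgebra. -/

namespace Vale.Agent.P078

open Filter Topology

variable {H : Type*} [NormedAddCommGroup H] [InnerProductSpace ℂ H] [CompleteSpace H]
  {A : StarSubalgebra ℂ (H →L[ℂ] H)}

/-- A finite partition of unity by projections of `A`. -/
structure Part (A : StarSubalgebra ℂ (H →L[ℂ] H)) where
  n : ℕ
  c : Fin n → H →L[ℂ] H
  mem : ∀ i, c i ∈ A
  proj : ∀ i, IsStarProjection (c i)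
  orth : ∀ i j, i ≠ j → c i * c j = 0
  sum : ∑ i, c i = 1

/-- The cells of `P` respect `e`. -/
def Part.Splits (P : Part A) (e : H →L[ℂ] H) : Prop :=
  ∀ i, e * P.c i = P.c i ∨ e * P.c i = 0

lemma IsMasa.exists_split (hA : IsMasa A) (s : Finset {e // e ∈ A ∧ IsStarProjection e}) :
    ∃ P : Part A, ∀ e ∈ s, P.Splits e.1 := by
  classical
  induction s using Finset.induction_on with
  | empty =>
    exact ⟨⟨1, fun _ => 1, fun _ => one_mem A, fun _ => IsStarProjection.one _,
      fun i j h => absurd (Subsingleton.elim i j) h, by simp⟩, by simp⟩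
  | @insert e s _ ih =>
    obtain ⟨P, hP⟩ := ih
    obtain ⟨e, heA, he⟩ := e
    have hcm : ∀ i, e * P.c i = P.c i * e := fun i => hA.comm heA (P.mem i)
    have hcm' : ∀ i, (1 - e) * P.c i = P.c i * (1 - e) := fun i =>
      hA.comm (sub_mem (one_mem A) heA) (P.mem i)
    refine ⟨⟨P.n + P.n, Fin.addCases (fun i => e * P.c i) (fun i => (1 - e) * P.c i),
      fun i => ?_, fun i => ?_, fun i j h => ?_, ?_⟩, fun f hf i => ?_⟩
    · induction i using Fin.addCases with
      | left i => simpa using mul_mem heA (P.mem i)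
      | right i => rw [Fin.addCases_right]; exact mul_mem (sub_mem (one_mem A) heA) (P.mem i)
    · induction i using Fin.addCases with
      | left i => simpa using he.mul (P.proj i) (hcm i)
      | right i => rw [Fin.addCases_right]; exact he.one_sub.mul (P.proj i) (hcm' i)
    · induction i using Fin.addCases with
      | left i =>
        induction j using Fin.addCases with
        | left j =>
          simp only [Fin.addCases_left]
          rw [mul_assoc, ← mul_assoc (P.c i), ← hcm, mul_assoc,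
            P.orth i j fun hij => h (by rw [hij]), mul_zero, mul_zero]
        | right j =>
          simp only [Fin.addCases_left, Fin.addCases_right]
          rw [hcm, mul_assoc, ← mul_assoc e, he.mul_one_sub_self, zero_mul, mul_zero]
      | right i =>
        induction j using Fin.addCases with
        | left j =>
          simp only [Fin.addCases_left, Fin.addCases_right]
          rw [hcm', mul_assoc, ← mul_assoc (1 - e), he.one_sub_mul_self, zero_mul, mul_zero]
        | right j =>
          simp only [Fin.addCases_right]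
          rw [mul_assoc, ← mul_assoc (P.c i), ← hcm', mul_assoc,
            P.orth i j fun hij => h (by rw [hij]), mul_zero, mul_zero]
    · simp only [Fin.sum_univ_add, Fin.addCases_left, Fin.addCases_right, ← Finset.mul_sum, P.sum,
        mul_one]
      abel
    · rcases Finset.mem_insert.1 hf with rfl | hf'
      · induction i using Fin.addCases with
        | left i => left; simp [← mul_assoc, he.isIdempotentElem.eq]
        | right i => right; simp only [Fin.addCases_right, ← mul_assoc, he.mul_one_sub_self, zero_mul]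
      · induction i using Fin.addCases with
        | left i =>
          simp only [Fin.addCases_left]
          rw [← mul_assoc, hA.comm f.2.1 heA, mul_assoc]
          rcases hP f hf' i with h | h <;> simp [h]
        | right i =>
          simp only [Fin.addCases_right]
          rw [← mul_assoc, hA.comm f.2.1 (sub_mem (one_mem A) heA), mul_assoc]
          rcases hP f hf' i with h | h <;> simp [h]

/-- A finite family of projections of `A` below and adding up to `e`, each small at `ξ`. -/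
def GoodAt (A : StarSubalgebra ℂ (H →L[ℂ] H)) (ξ : H) (η : ℝ) (e : H →L[ℂ] H) : Prop :=
  ∃ (n : ℕ) (c : Fin n → H →L[ℂ] H),
    (∀ i, c i ∈ A ∧ IsStarProjection (c i) ∧ ‖c i ξ‖ ^ 2 ≤ η) ∧ ∑ i, c i = e

lemma GoodAt.add {ξ : H} {η : ℝ} {e f : H →L[ℂ] H} (he : GoodAt A ξ η e) (hf : GoodAt A ξ η f) :
    GoodAt A ξ η (e + f) := by
  obtain ⟨n, c, hc, hce⟩ := he
  obtain ⟨m, d, hd, hdf⟩ := hf
  refine ⟨n + m, Fin.addCases c d, fun i => ?_, by simp [Fin.sum_univ_add, hce, hdf]⟩
  induction i using Fin.addCases with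
  | left i => simpa using hc i
  | right i => simpa using hd i

theorem IsMasa.exists_good (hA : IsMasa A) (hd : IsDiffuse A) (ξ : H) {η : ℝ} (hη : 0 < η) :
    GoodAt A ξ η 1 := by
  by_contra hbad
  let Sub := {e : H →L[ℂ] H // e ∈ A ∧ IsStarProjection e ∧ ¬ GoodAt A ξ η e}
  have small : ∀ e ∈ A, IsStarProjection e → ‖e ξ‖ ^ 2 ≤ η → GoodAt A ξ η e := fun e he he' h =>
    ⟨1, fun _ => e, fun _ => ⟨he, he', h⟩, by simp⟩
  let below : Sub → Set ℝ := fun e =>
    (fun f : Sub => ‖f.1 ξ‖ ^ 2) '' {f | e.1 * f.1 = f.1}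
  have hbdd : ∀ e, BddBelow (below e) := fun e => ⟨0, by rintro _ ⟨f, -, rfl⟩; positivity⟩
  have hstep : ∀ (k : ℕ) (e : Sub), ∃ f : Sub, e.1 * f.1 = f.1 ∧
      ‖f.1 ξ‖ ^ 2 ≤ sInf (below e) + 1 / ((k : ℝ) + 1) := by
    intro k e
    obtain ⟨_, ⟨f, hf, rfl⟩, h⟩ := exists_lt_of_csInf_lt
      (show (below e).Nonempty from ⟨_, e, e.2.2.1.isIdempotentElem.eq, rfl⟩)
      (lt_add_of_pos_right (sInf (below e)) (show (0 : ℝ) < 1 / ((k : ℝ) + 1) by positivity))
    exact ⟨f, hf, h.le⟩
  choose next hn1 hn2 using hstep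
  let e : ℕ → Sub := fun k => Nat.rec ⟨1, one_mem A, IsStarProjection.one _, hbad⟩ next k
  have hesucc : ∀ k, e (k + 1) = next k (e k) := fun k => rfl
  have hmono : ∀ i j, i ≤ j → (e i).1 * (e j).1 = (e j).1 := by
    intro i j hij
    induction hij with
    | refl => exact (e i).2.2.1.isIdempotentElem.eq
    | @step j _ ih =>
      have h1 : (e j).1 * (e (j + 1)).1 = (e (j + 1)).1 := hn1 j (e j)
      rw [← h1, ← mul_assoc, ih]
  set mu : ℕ → ℝ := fun k => ‖(e k).1 ξ‖ ^ 2 with hmu
  have hmu_sub : ∀ i j, i ≤ j → mu i = mu j + ‖(e i).1 ξ - (e j).1 ξ‖ ^ 2 := fun i j hij => by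
    rw [← sub_apply]
    exact norm_sq_split (e j).2.2.1 (by rw [hA.comm (e j).2.1 (e i).2.1, hmono i j hij]) ξ
  have hanti : Antitone mu := fun i j hij => by
    rw [hmu_sub i j hij]; exact le_add_of_nonneg_right (sq_nonneg _)
  have hlim := tendsto_atTop_ciInf hanti ⟨0, by rintro _ ⟨k, rfl⟩; positivity⟩
  set L := ⨅ k, mu k
  have hcau : CauchySeq fun k => (e k).1 ξ := by
    rw [Metric.cauchySeq_iff']
    intro ρ hρ
    obtain ⟨N, hN⟩ := (hlim.eventually (eventually_lt_nhds
      (lt_add_of_pos_right L (by positivity : 0 < ρ ^ 2)))).exists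
    refine ⟨N, fun k hk => ?_⟩
    have h1 := hmu_sub N k hk
    have h2 : L ≤ mu k := ciInf_le ⟨0, by rintro _ ⟨k, rfl⟩; positivity⟩ k
    rw [dist_eq_norm, norm_sub_rev]
    exact lt_of_pow_lt_pow_left₀ 2 hρ.le (by linarith)
  obtain ⟨z, hz⟩ := cauchySeq_tendsto_of_complete hcau
  let K : Submodule ℂ H :=
    { carrier := {v | ∀ k, (e k).1 v = v}
      add_mem' := fun {a b} ha hb k => by rw [map_add, ha k, hb k]
      zero_mem' := fun k => map_zero _
      smul_mem' := fun c a ha k => by rw [map_smul, ha k] }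
  have hKc : IsClosed (K : Set H) := by
    show IsClosed {v : H | ∀ k, (e k).1 v = v}
    simp only [Set.ofPred_forall]
    exact isClosed_iInter fun k => isClosed_eq (e k).1.continuous continuous_id
  obtain ⟨w, hwA, hw, hwmem, hwfix⟩ := hA.exists_proj K hKc fun y hy v hv k => by
    rw [← mul_apply_eq_comp, hA.comm (e k).2.1 hy, mul_apply_eq_comp, hv k]
  have hwe : ∀ k, (e k).1 * w = w := fun k => ContinuousLinearMap.ext fun v => hwmem v k
  have hzK : z ∈ K := fun k => by
    refine tendsto_nhds_unique (((e k).1.continuous.tendsto z).comp hz) (hz.congr' ?_)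
    filter_upwards [eventually_ge_atTop k] with j hj
    rw [Function.comp_apply, ← mul_apply_eq_comp, hmono k j hj]
  have hwz : z = w ξ := by
    refine tendsto_nhds_unique ?_ (tendsto_const_nhds (f := (atTop : Filter ℕ)) (x := w ξ))
    have h1 := (w.continuous.tendsto z).comp hz
    rw [hwfix z hzK] at h1
    refine h1.congr' ?_
    refine Eventually.of_forall fun k => ?_
    rw [Function.comp_apply, ← mul_apply_eq_comp, hA.comm hwA (e k).2.1, hwe]
  have hlow : ∀ k, η < mu k := fun k => lt_of_not_ge fun h =>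
    (e k).2.2.2 (small _ (e k).2.1 (e k).2.2.1 h)
  have hmulim : Tendsto mu atTop (𝓝 (‖w ξ‖ ^ 2)) := hwz ▸ (hz.norm.pow 2)
  have hwpos : η ≤ ‖w ξ‖ ^ 2 := ge_of_tendsto' hmulim fun k => (hlow k).le
  -- a bad projection below `w` has full mass
  have hfull : ∀ f ∈ A, IsStarProjection f → w * f = f → ¬ GoodAt A ξ η f →
      ‖w ξ‖ ^ 2 ≤ ‖f ξ‖ ^ 2 := by
    intro f hf hf' hwf hb
    have h1 : ∀ k, mu (k + 1) ≤ ‖f ξ‖ ^ 2 + 1 / ((k : ℝ) + 1) := fun k => by
      refine (hn2 k (e k)).trans (add_le_add ?_ le_rfl)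
      refine csInf_le (hbdd _) ⟨⟨f, hf, hf', hb⟩, ?_, rfl⟩
      show (e k).1 * f = f
      rw [← hwf, ← mul_assoc, hwe]
    refine le_of_tendsto_of_tendsto' (hmulim.comp (tendsto_add_atTop_nat 1))
      (by simpa using tendsto_one_div_add_atTop_nhds_zero_nat.const_add (‖f ξ‖ ^ 2)) h1
  obtain ⟨s, hsA, hs, hsξ, hsup⟩ := hA.exists_support ξ
  set f₀ := w * s with hf₀
  have hf₀p : IsStarProjection f₀ := hw.mul hs (hA.comm hwA hsA)
  have hf₀ξ : f₀ ξ = w ξ := by rw [hf₀, mul_apply_eq_comp, hsξ]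
  have hf₀0 : f₀ ≠ 0 := fun h => by
    rw [← hf₀ξ, h, zero_apply, norm_zero] at hwpos; nlinarith
  obtain ⟨f, hfA, hf, hf0, hfne, hff⟩ := hd f₀ (mul_mem hwA hsA) hf₀p hf₀0
  have hws : ∀ u, f₀ * u = w * (s * u) := fun u => mul_assoc _ _ _
  have hwf : w * f = f := by
    rw [← hff, hws, ← mul_assoc, hw.isIdempotentElem.eq]
  have hfs : f * s = f := by
    rw [← hff, hA.comm (mul_mem hwA hsA) hfA, mul_assoc, mul_assoc w s s, hs.isIdempotentElem.eq]
  have hfw : f * w = f := by rw [hA.comm hfA hwA, hwf]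
  have hg : IsStarProjection (w - f) := hf.sub_of_mul_eq_left hw hfw
  have hfpos : 0 < ‖f ξ‖ ^ 2 := pow_pos (norm_pos_iff.2 fun h => hf0 (hsup f hfA hfs h)) 2
  have hgpos : 0 < ‖(w - f) ξ‖ ^ 2 := by
    refine pow_pos (norm_pos_iff.2 fun h => hfne ?_) 2
    have h1 := hsup ((w - f) * s) (mul_mem (sub_mem hwA hfA) hsA)
      (by rw [mul_assoc, hs.isIdempotentElem.eq]) (by rw [mul_apply_eq_comp, hsξ]; exact h)
    rw [sub_mul, hfs, sub_eq_zero] at h1
    exact h1.symm
  have hsum := norm_sq_split (e := w) hf hfw ξ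
  obtain ⟨k, hk⟩ := (hmulim.eventually (eventually_lt_nhds
    (lt_add_of_pos_right (‖w ξ‖ ^ 2) hη))).exists
  have hrest : GoodAt A ξ η ((e k).1 - w) := by
    have hwk : w * (e k).1 = w := by rw [hA.comm hwA (e k).2.1, hwe]
    refine small _ (sub_mem (e k).2.1 hwA) (hw.sub_of_mul_eq_left (e k).2.2.1 hwk) ?_
    have := norm_sq_split (e := (e k).1) hw hwk ξ
    simp only [hmu] at hk
    linarith
  by_cases hgf : GoodAt A ξ η f
  · by_cases hgg : GoodAt A ξ η (w - f)
    · have := (hrest.add hgf).add hgg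
      rw [show (e k).1 - w + f + (w - f) = (e k).1 by abel] at this
      exact (e k).2.2.2 this
    · have := hfull _ (sub_mem hwA hfA) hg (by rw [mul_sub, hw.isIdempotentElem.eq, hwf]) hgg
      linarith
  · have := hfull f hfA hf hwf hgf
    linarith

/-- Partitions which split finitely many projections have small cells. -/
theorem IsMasa.exists_fine (hA : IsMasa A) (hd : IsDiffuse A) (ξ : H) {η : ℝ} (hη : 0 < η) :
    ∃ s : Finset {e // e ∈ A ∧ IsStarProjection e},
      ∀ P : Part A, (∀ e ∈ s, P.Splits e.1) → ∀ i, ‖P.c i ξ‖ ^ 2 ≤ η := by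
  classical
  obtain ⟨n, c, hc, hsum⟩ := hA.exists_good hd ξ hη
  refine ⟨Finset.univ.image fun i : Fin n =>
    (⟨c i, (hc i).1, (hc i).2.1⟩ : {e // e ∈ A ∧ IsStarProjection e}), fun P hP j => ?_⟩
  by_cases hall : ∀ i, c i * P.c j = 0
  · have : P.c j = 0 := by
      rw [← one_mul (P.c j), ← hsum, Finset.sum_mul]
      exact Finset.sum_eq_zero fun i _ => hall i
    simpa [this] using hη.le
  · obtain ⟨i, hi⟩ := not_forall.1 hall
    have h1 : c i * P.c j = P.c j :=
      (hP _ (Finset.mem_image.2 ⟨i, Finset.mem_univ _, rfl⟩) j).resolve_right hi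
    refine le_trans (pow_le_pow_left₀ (norm_nonneg _) ?_ 2) (hc i).2.2
    rw [← h1, hA.comm (hc i).1 (P.mem j), mul_apply_eq_comp]
    exact norm_proj_apply_le (P.proj j) _

end Vale.Agent.P078
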