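import Mathlib.Analysis.InnerProductSpace.Dual
import Mathlib.Order.Filter.Ultrafilter.Defs
import Vale.Agent.P078.Fine

/-! The weak limit of block-diagonal parts along finer and finer partitions. -/

namespace Vale.Agent.P078

open Filter Topology

variable {H : Type*} [NormedAddCommGroup H] [InnerProductSpace ℂ H] [CompleteSpace H]
  {A : StarSubalgebra ℂ (H →L[ℂ] H)}

/-- The block-diagonal part. -/
def Part.diag (P : Part A) (x : H →L[ℂ] H) : H →L[ℂ] H := ∑ i, P.c i * x * P.c i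

lemma Part.norm_sum_sq (P : Part A) (w : Fin P.n → H) :
    ‖∑ i, P.c i (w i)‖ ^ 2 = ∑ i, ‖P.c i (w i)‖ ^ 2 := by
  classical
  suffices h : ∀ s : Finset (Fin P.n),
      ‖∑ i ∈ s, P.c i (w i)‖ ^ 2 = ∑ i ∈ s, ‖P.c i (w i)‖ ^ 2 from h _
  intro s
  induction s using Finset.induction_on with
  | empty => simp
  | @insert a s ha ih =>
    rw [Finset.sum_insert ha, Finset.sum_insert ha, ← ih, sq, sq, sq]
    refine norm_add_sq_eq_norm_sq_add_norm_sq_of_inner_eq_zero (𝕜 := ℂ) _ _ ?_
    rw [inner_sum]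
    refine Finset.sum_eq_zero fun i hi => ?_
    have e := (P.proj a).isSelfAdjoint.isSymmetric (w a) (P.c i (w i))
    simp only [ContinuousLinearMap.coe_coe] at e
    rw [e, ← mul_apply_eq_comp, P.orth a i (fun h => ha (h ▸ hi)), zero_apply, inner_zero_right]

lemma Part.sum_norm_sq (P : Part A) (v : H) : ∑ i, ‖P.c i v‖ ^ 2 = ‖v‖ ^ 2 := by
  rw [← P.norm_sum_sq fun _ => v, ← sum_apply, P.sum, one_apply_eq_self]

lemma Part.norm_diag_apply_le (P : Part A) (x : H →L[ℂ] H) (v : H) :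
    ‖P.diag x v‖ ≤ ‖x‖ * ‖v‖ := by
  refine (pow_le_pow_iff_left₀ (norm_nonneg _) (by positivity) two_ne_zero).1 ?_
  rw [Part.diag, sum_apply]
  simp only [mul_apply_eq_comp]
  rw [P.norm_sum_sq, mul_pow, ← P.sum_norm_sq v, Finset.mul_sum]
  refine Finset.sum_le_sum fun i _ => ?_
  rw [← mul_pow]
  exact pow_le_pow_left₀ (norm_nonneg _) ((norm_proj_apply_le (P.proj i) _).trans (x.le_opNorm _)) 2

lemma Part.diag_comm (hA : IsMasa A) (P : Part A) (x : H →L[ℂ] H) {e : H →L[ℂ] H} (he : e ∈ A)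
    (h : P.Splits e) : P.diag x * e = e * P.diag x := by
  simp only [Part.diag, Finset.sum_mul, Finset.mul_sum]
  refine Finset.sum_congr rfl fun i _ => ?_
  rw [mul_assoc (P.c i * x) (P.c i) e, ← hA.comm he (P.mem i), ← mul_assoc e (P.c i * x),
    ← mul_assoc e (P.c i)]
  rcases h i with h' | h' <;> simp [h']

lemma Part.inner_diag (P : Part A) {x : H →L[ℂ] H} (hx : IsSelfAdjoint x) (v w : H) :
    inner ℂ (P.diag x v) w = (inner ℂ v (P.diag x w) : ℂ) := by
  simp only [Part.diag, sum_apply, mul_apply_eq_comp, sum_inner, inner_sum]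
  refine Finset.sum_congr rfl fun i _ => ?_
  have e : ∀ u z : H, inner ℂ (P.c i u) z = (inner ℂ u (P.c i z) : ℂ) :=
    (P.proj i).isSelfAdjoint.isSymmetric
  have ex : ∀ u z : H, inner ℂ (x u) z = (inner ℂ u (x z) : ℂ) := hx.isSymmetric
  rw [e, ex, e]

theorem exists_diag_limit (hA : IsMasa A) {x : H →L[ℂ] H} (hx : IsSelfAdjoint x) :
    ∃ (U : Ultrafilter (Part A)) (T : H →L[ℂ] H), T ∈ A ∧ IsSelfAdjoint T ∧ ‖T‖ ≤ ‖x‖ ∧
      (∀ s : Finset {e // e ∈ A ∧ IsStarProjection e},
        ∀ᶠ P in (U : Filter (Part A)), ∀ e ∈ s, P.Splits e.1) ∧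
      ∀ v w, Tendsto (fun P => (inner ℂ v (P.diag x w) : ℂ)) (U : Filter (Part A))
        (𝓝 (inner ℂ v (T w))) := by
  classical
  set F : Filter (Part A) := ⨅ s : Finset {e // e ∈ A ∧ IsStarProjection e},
    𝓟 {P : Part A | ∀ e ∈ s, P.Splits e.1} with hF
  have : F.NeBot := by
    have : Nonempty (Part A) := ⟨(hA.exists_split ∅).choose⟩
    refine iInf_neBot_of_directed (fun s t => ⟨s ∪ t, ?_, ?_⟩)
      fun s => principal_neBot_iff.2 (hA.exists_split s)
    · exact principal_mono.2 fun P hP e he => hP e (Finset.mem_union_left _ he)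
    · exact principal_mono.2 fun P hP e he => hP e (Finset.mem_union_right _ he)
  obtain ⟨U, hU⟩ := Ultrafilter.exists_le F
  have hev : ∀ s : Finset {e // e ∈ A ∧ IsStarProjection e},
      ∀ᶠ P in (U : Filter (Part A)), ∀ e ∈ s, P.Splits e.1 := fun s =>
    hU (mem_iInf_of_mem s (mem_principal_self _))
  have hex : ∀ v w : H, ∃ l : ℂ, ‖l‖ ≤ ‖x‖ * ‖v‖ * ‖w‖ ∧
      Tendsto (fun P => (inner ℂ (P.diag x v) w : ℂ)) (U : Filter (Part A)) (𝓝 l) := by
    intro v w
    obtain ⟨l, hl, hlim⟩ := (isCompact_closedBall (0 : ℂ) (‖x‖ * ‖v‖ * ‖w‖)).ultrafilter_le_nhds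
      (U.map fun P => (inner ℂ (P.diag x v) w : ℂ))
      (le_principal_iff.2 (mem_map.2 (univ_mem' fun P => mem_closedBall_zero_iff.2
        ((norm_inner_le_norm _ _).trans
          (mul_le_mul_of_nonneg_right (P.norm_diag_apply_le x v) (norm_nonneg _))))))
    exact ⟨l, mem_closedBall_zero_iff.1 hl, hlim⟩
  choose L hLn hL using hex
  have hu : ∀ {v w : H} {l : ℂ},
      Tendsto (fun P => (inner ℂ (P.diag x v) w : ℂ)) (U : Filter (Part A)) (𝓝 l) → L v w = l :=
    fun h => tendsto_nhds_unique (hL _ _) h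
  let B := LinearMap.mkContinuous₂ (LinearMap.mk₂'ₛₗ (starRingEnd ℂ) (RingHom.id ℂ) L
    (fun v v' w => hu (((hL v w).add (hL v' w)).congr fun P => by rw [map_add, inner_add_left]))
    (fun c v w => hu (((hL v w).const_mul (starRingEnd ℂ c)).congr fun P => by
      rw [map_smul, inner_smul_left]))
    (fun v w w' => hu (((hL v w).add (hL v w')).congr fun P => by rw [inner_add_right]))
    (fun c v w => hu (((hL v w).const_mul c).congr fun P => by rw [inner_smul_right])))
    ‖x‖ hLn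
  set T := InnerProductSpace.continuousLinearMapOfBilin B with hTdef
  have hT : ∀ v w, (inner ℂ (T v) w : ℂ) = L v w := fun v w =>
    InnerProductSpace.continuousLinearMapOfBilin_apply B v w
  have hTs : ∀ v w, (inner ℂ (T v) w : ℂ) = inner ℂ v (T w) := by
    intro v w
    rw [← inner_conj_symm v (T w), hT, hT]
    refine hu (((Complex.continuous_conj.tendsto _).comp (hL w v)).congr fun P => ?_)
    rw [Function.comp_apply, inner_conj_symm, P.inner_diag hx]
  refine ⟨U, T, ?_, ContinuousLinearMap.isSelfAdjoint_iff_isSymmetric.2 hTs, ?_, hev,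
    fun v w => ?_⟩
  · refine hA.mem_of_comm_proj fun e he hep => ContinuousLinearMap.ext fun v => ?_
    refine ext_inner_right ℂ fun w => ?_
    have es : ∀ u z : H, inner ℂ (e u) z = (inner ℂ u (e z) : ℂ) := hep.isSelfAdjoint.isSymmetric
    rw [mul_apply_eq_comp, mul_apply_eq_comp, hT, es, hT]
    refine hu ((hL v (e w)).congr' ?_)
    filter_upwards [hev {⟨e, he, hep⟩}] with P hP
    rw [← es, ← mul_apply_eq_comp, ← P.diag_comm hA x he (hP _ (Finset.mem_singleton_self _)),
      mul_apply_eq_comp]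
  · refine ContinuousLinearMap.opNorm_le_bound _ (norm_nonneg _) fun v => ?_
    have h1 := hLn v (T v)
    rw [← hT, inner_self_eq_norm_sq_to_K] at h1
    simp only [Complex.coe_algebraMap, norm_pow, Complex.norm_real, norm_norm] at h1
    rcases eq_or_lt_of_le (norm_nonneg (T v)) with h0 | h0
    · rw [← h0]; positivity
    · exact le_of_mul_le_mul_right (by rw [← sq]; exact h1) h0
  · rw [← hTs, hT]
    exact (hL v w).congr fun P => P.inner_diag hx v w

end Vale.Agent.P078
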