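import Mathlib.Algebra.Order.Chebyshev
import Mathlib.Analysis.InnerProductSpace.PiL2
import Vale.Agent.P078.Limit

/-! Every diffuse maximal abelian subalgebra of `B(H)` needs at least `1/ε` pieces. -/

namespace Vale.Agent.P078

open Filter Topology

variable {H : Type*} [NormedAddCommGroup H] [InnerProductSpace ℂ H] [CompleteSpace H]
  {A : StarSubalgebra ℂ (H →L[ℂ] H)}

/-- A sign as a complex number. -/
def sgn (b : Bool) : ℂ := if b then 1 else -1

lemma sgn_mul_self (b : Bool) : sgn b * sgn b = 1 := by cases b <;> norm_num [sgn]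

lemma star_sgn (b : Bool) : star (sgn b) = sgn b := by cases b <;> norm_num [sgn]

/-- Signs can be chosen so that the sum has at most the quadratic mean length. -/
lemma exists_signs {E : Type*} [NormedAddCommGroup E] [InnerProductSpace ℂ E] :
    ∀ {n : ℕ} (w : Fin n → E), ∃ σ : Fin n → Bool,
      ‖∑ j, sgn (σ j) • w j‖ ^ 2 ≤ ∑ j, ‖w j‖ ^ 2 := by
  intro n
  induction n with
  | zero => exact fun w => ⟨fun _ => true, by simp⟩
  | succ n ih =>
    intro w
    obtain ⟨σ, hσ⟩ := ih fun j => w j.succ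
    set s := ∑ j : Fin n, sgn (σ j) • w j.succ
    have hp := parallelogram_law_with_norm ℂ s (w 0)
    rcases le_total ‖s + w 0‖ ‖s - w 0‖ with h | h
    · refine ⟨Fin.cons true σ, ?_⟩
      rw [Fin.sum_univ_succ, Fin.sum_univ_succ]
      simp only [Fin.cons_zero, Fin.cons_succ, sgn, if_true, one_smul]
      rw [add_comm (w 0)]
      change ‖s + w 0‖ ^ 2 ≤ _
      nlinarith [norm_nonneg (s + w 0)]
    · refine ⟨Fin.cons false σ, ?_⟩
      rw [Fin.sum_univ_succ, Fin.sum_univ_succ]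
      simp only [Fin.cons_zero, Fin.cons_succ, sgn, Bool.false_eq_true, if_false, neg_smul, one_smul]
      rw [neg_add_eq_sub]
      change ‖s - w 0‖ ^ 2 ≤ _
      nlinarith [norm_nonneg (s - w 0)]

/-- The reflection `2|ξ⟩⟨ξ| - 1`. -/
noncomputable def refl (ξ : H) : H →L[ℂ] H := (2 : ℂ) • InnerProductSpace.rankOne ℂ ξ ξ - 1

lemma refl_apply (ξ v : H) : refl ξ v = (2 : ℂ) • (inner ℂ ξ v : ℂ) • ξ - v := by
  simp [refl, InnerProductSpace.rankOne_apply]

lemma inner_refl (ξ v : H) :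
    (inner ℂ v (refl ξ v) : ℂ) = ((2 * ‖(inner ℂ ξ v : ℂ)‖ ^ 2 - ‖v‖ ^ 2 : ℝ) : ℂ) := by
  rw [refl_apply, inner_sub_right, inner_smul_right, inner_smul_right, inner_self_eq_norm_sq_to_K,
    ← inner_conj_symm v ξ]
  push_cast
  rw [Complex.mul_conj']
  rfl

lemma isSelfAdjoint_refl (ξ : H) : IsSelfAdjoint (refl ξ) := by
  refine ContinuousLinearMap.isSelfAdjoint_iff_isSymmetric.2 fun v w => ?_
  simp only [ContinuousLinearMap.coe_coe, refl_apply, inner_sub_left, inner_sub_right,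
    inner_smul_left, inner_smul_right, inner_conj_symm]
  simp only [map_ofNat]
  ring

lemma norm_refl {ξ : H} (hξ : ‖ξ‖ = 1) : ‖refl ξ‖ = 1 := by
  refine le_antisymm (ContinuousLinearMap.opNorm_le_bound _ zero_le_one fun v => ?_) ?_
  · rw [one_mul]
    refine le_of_eq ?_
    rw [← sq_eq_sq₀ (norm_nonneg _) (norm_nonneg _), refl_apply, @norm_sub_sq ℂ, norm_smul,
      norm_smul, hξ, inner_smul_left, inner_smul_left]
    simp only [map_ofNat, Complex.norm_ofNat, RCLike.re_to_complex]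
    rw [← Complex.normSq_eq_conj_mul_self, Complex.normSq_eq_norm_sq]
    norm_num [← Complex.ofReal_pow]
    ring
  · have h := (refl ξ).le_opNorm ξ
    rw [refl_apply, inner_self_eq_norm_sq_to_K, hξ, mul_one] at h
    simp only [map_one, one_pow, one_smul, two_smul, add_sub_cancel_right, hξ] at h
    exact h

/-- If `r` pieces suffice for all self-adjoint operators then `1 ≤ ε r`. -/
theorem le_mul_of_soPavable [Nontrivial H] (hA : IsMasa A) (hd : IsDiffuse A) {ε : ℝ} {r : ℕ}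
    (h : ∀ x : H →L[ℂ] H, IsSelfAdjoint x → SoPavable A x ε r) : 1 ≤ ε * r := by
  classical
  obtain ⟨ξ₀, hξ₀⟩ := exists_ne (0 : H)
  set ξ := (‖ξ₀‖⁻¹ : ℂ) • ξ₀
  have hξ : ‖ξ‖ = 1 := norm_smul_inv_norm hξ₀
  set x := refl ξ with hxdef
  suffices key : ∀ η : ℝ, 0 < η → r ≠ 0 ∧ 1 / (r : ℝ) ≤ ε + 5 * η by
    obtain ⟨hr, -⟩ := key 1 one_pos
    have h1 : 1 / (r : ℝ) ≤ ε := le_of_forall_pos_le_add fun η hη => by
      have := (key (η / 5) (by positivity)).2
      linarith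
    rwa [div_le_iff₀ (by positivity)] at h1
  intro η hη
  obtain ⟨s, hs⟩ := hA.exists_fine hd ξ hη
  obtain ⟨P, hP⟩ := hA.exists_split s
  have hsmall := hs P hP
  set u : (Fin P.n → Bool) → H →L[ℂ] H := fun σ => ∑ j, sgn (σ j) • P.c j with hu
  set F : Finset H := insert ξ (Finset.univ.image fun σ => u σ ξ) with hF
  obtain ⟨p, a, q, hpA, hporth, hpsum, haA, -, han, hq, hqF, hbound⟩ :=
    h x (isSelfAdjoint_refl ξ) F η hη
  rw [hxdef, norm_refl hξ] at han
  rw [hxdef, norm_refl hξ, mul_one, ← hxdef] at hbound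
  set Q : Part A := ⟨r, p, fun i => (hpA i).1, fun i => (hpA i).2, hporth, hpsum⟩
  have hQsum := Q.sum_norm_sq ξ
  have hr : r ≠ 0 := by
    rintro rfl
    simp [Q, hξ] at hQsum
  refine ⟨hr, ?_⟩
  set y := Q.diag x - a
  have hy : ∀ v, ‖y v‖ ≤ 2 * ‖v‖ := fun v => by
    rw [sub_apply]
    refine (norm_sub_le _ _).trans ?_
    have h1 := Q.norm_diag_apply_le x v
    rw [hxdef, norm_refl hξ] at h1
    have h2 := (a.le_opNorm v).trans (mul_le_mul_of_nonneg_right han (norm_nonneg _))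
    simp only [← hxdef] at h1
    linarith
  -- the expectation of `S_P x - a` at the test vectors
  have htest : ∀ f ∈ F, ‖f‖ = 1 → ‖(inner ℂ f (y f) : ℂ)‖ ≤ ε + 4 * η := by
    intro f hf hfn
    have he : ‖f - q f‖ ≤ η := by simpa using (hqF f hf).le
    have hqf : ‖q f‖ ≤ 1 := hfn ▸ norm_proj_apply_le hq f
    have hqs : ∀ v w : H, inner ℂ (q v) w = (inner ℂ v (q w) : ℂ) := hq.isSelfAdjoint.isSymmetric
    have e : (inner ℂ f (y f) : ℂ)
        = inner ℂ f ((q * y * q) f) + inner ℂ (f - q f) (y f) + inner ℂ (q f) (y (f - q f)) := by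
      simp only [mul_apply_eq_comp, ← hqs, inner_sub_left, map_sub, inner_sub_right]
      ring
    rw [e]
    refine (norm_add₃_le).trans ?_
    have b1 : ‖(inner ℂ f ((q * y * q) f) : ℂ)‖ ≤ ε := by
      refine (norm_inner_le_norm _ _).trans ?_
      rw [hfn, one_mul]
      refine ((q * y * q).le_opNorm f).trans ?_
      rw [hfn, mul_one]
      exact hbound
    have b2 : ‖(inner ℂ (f - q f) (y f) : ℂ)‖ ≤ η * 2 :=
      (norm_inner_le_norm _ _).trans
        (mul_le_mul he ((hy f).trans_eq (by rw [hfn, mul_one])) (norm_nonneg _) hη.le)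
    have b3 : ‖(inner ℂ (q f) (y (f - q f)) : ℂ)‖ ≤ 1 * (2 * η) :=
      (norm_inner_le_norm _ _).trans
        (mul_le_mul hqf ((hy _).trans (by linarith)) (norm_nonneg _) zero_le_one)
    linarith
  set G : H → ℝ := fun f => ∑ i, ‖(inner ℂ (p i ξ) f : ℂ)‖ ^ 2 with hG
  have hdiag : ∀ f, ‖f‖ = 1 → (inner ℂ f (Q.diag x f) : ℂ) = ((2 * G f - 1 : ℝ) : ℂ) := by
    intro f hf
    have e : ∀ i, (inner ℂ f (p i (x (p i f))) : ℂ)
        = ((2 * ‖(inner ℂ (p i ξ) f : ℂ)‖ ^ 2 - ‖p i f‖ ^ 2 : ℝ) : ℂ) := fun i => by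
      have hs : ∀ v w : H, inner ℂ (p i v) w = (inner ℂ v (p i w) : ℂ) :=
        (hpA i).2.isSelfAdjoint.isSymmetric
      rw [← hs, hxdef, inner_refl, ← hs ξ f]
    have h1 : ∑ i, ‖p i f‖ ^ 2 = 1 := by
      have := Q.sum_norm_sq f
      rwa [hf, one_pow] at this
    rw [Part.diag, sum_apply, inner_sum]
    refine (Finset.sum_congr rfl fun i _ => e i).trans ?_
    rw [← Complex.ofReal_sum, Finset.sum_sub_distrib, h1, ← Finset.mul_sum]
  -- signs
  let w : Fin P.n → EuclideanSpace ℂ (Fin r) :=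
    fun j => WithLp.toLp 2 fun i => (inner ℂ (p i ξ) (P.c j ξ) : ℂ)
  obtain ⟨σ, hσ⟩ := exists_signs w
  have husa : IsSelfAdjoint (u σ) := by
    rw [IsSelfAdjoint, hu, star_sum]
    refine Finset.sum_congr rfl fun j _ => ?_
    rw [star_smul, star_sgn, (P.proj j).isSelfAdjoint.star_eq]
  have huu : u σ * u σ = 1 := by
    rw [hu, Finset.sum_mul, ← P.sum]
    refine Finset.sum_congr rfl fun i _ => ?_
    rw [Finset.mul_sum, Finset.sum_eq_single i
      (fun j _ hj => by rw [smul_mul_smul_comm, P.orth i j (Ne.symm hj), smul_zero]) (by simp),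
      smul_mul_smul_comm, sgn_mul_self, (P.proj i).isIdempotentElem.eq, one_smul]
  have hus : ∀ v z : H, inner ℂ (u σ v) z = (inner ℂ v (u σ z) : ℂ) := husa.isSymmetric
  have huA : u σ ∈ A := sum_mem fun j _ => A.smul_mem (P.mem j) _
  have hun : ‖u σ ξ‖ = 1 := by
    have h1 : (inner ℂ (u σ ξ) (u σ ξ) : ℂ) = inner ℂ ξ ξ := by
      rw [hus, ← mul_apply_eq_comp, huu, one_apply_eq_self]
    rw [@norm_eq_sqrt_re_inner ℂ, h1, ← @norm_eq_sqrt_re_inner ℂ, hξ]
  have ha : (inner ℂ (u σ ξ) (a (u σ ξ)) : ℂ) = inner ℂ ξ (a ξ) := by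
    rw [hus, ← mul_apply_eq_comp, ← mul_apply_eq_comp, hA.comm huA haA, mul_assoc,
      huu, mul_one]
  have hGu : G (u σ ξ) ≤ η := by
    have e : G (u σ ξ) = ‖∑ j, sgn (σ j) • w j‖ ^ 2 := by
      rw [EuclideanSpace.norm_sq_eq]
      refine Finset.sum_congr rfl fun i _ => ?_
      simp [w, hu, sum_apply, inner_sum, inner_smul_right]
    rw [e]
    refine hσ.trans ?_
    simp only [EuclideanSpace.norm_sq_eq, w]
    rw [Finset.sum_comm]
    refine (Finset.sum_le_sum fun i _ => show ∑ j, ‖(inner ℂ (p i ξ) (P.c j ξ) : ℂ)‖ ^ 2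
      ≤ η * ‖p i ξ‖ ^ 2 from ?_).trans (le_of_eq ?_)
    · rw [← P.sum_norm_sq (p i ξ), Finset.mul_sum]
      refine Finset.sum_le_sum fun j _ => ?_
      have hs : ∀ v z : H, inner ℂ (P.c j v) z = (inner ℂ v (P.c j z) : ℂ) :=
        (P.proj j).isSelfAdjoint.isSymmetric
      rw [← proj_apply _ (P.proj j) ξ, ← hs]
      refine (pow_le_pow_left₀ (norm_nonneg _) (norm_inner_le_norm _ _) 2).trans ?_
      rw [mul_pow, mul_comm]
      exact mul_le_mul_of_nonneg_right (hsmall j) (sq_nonneg _)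
    · rw [← Finset.mul_sum]
      have := Q.sum_norm_sq ξ
      rw [hξ, one_pow] at this
      exact (congrArg (η * ·) this).trans (mul_one η)
  have hGξ : 1 / (r : ℝ) ≤ G ξ := by
    have h1 : ∀ i, ‖(inner ℂ (p i ξ) ξ : ℂ)‖ = ‖p i ξ‖ ^ 2 := fun i => by
      have hs : ∀ v w : H, inner ℂ (p i v) w = (inner ℂ v (p i w) : ℂ) :=
        (hpA i).2.isSelfAdjoint.isSymmetric
      conv_lhs => rw [← proj_apply _ (hpA i).2 ξ, hs, ← inner_conj_symm]
      rw [inner_self_eq_norm_sq_to_K]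
      simp
    have h2 := sq_sum_le_card_mul_sum_sq (s := (Finset.univ : Finset (Fin r)))
      (f := fun i => ‖p i ξ‖ ^ 2)
    have h3 : ∑ i, ‖p i ξ‖ ^ 2 = 1 := by
      have := Q.sum_norm_sq ξ
      rwa [hξ, one_pow] at this
    rw [h3, one_pow, Finset.card_univ, Fintype.card_fin] at h2
    rw [hG]
    simp only [h1]
    rw [div_le_iff₀ (by positivity)]
    linarith
  have t1 := htest ξ (Finset.mem_insert_self _ _) hξ
  have t2 := htest (u σ ξ)
    (Finset.mem_insert_of_mem (Finset.mem_image.2 ⟨σ, Finset.mem_univ _, rfl⟩)) hun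
  simp only [y, sub_apply, inner_sub_right] at t1 t2
  rw [hdiag ξ hξ] at t1
  rw [hdiag _ hun, ha] at t2
  have t3 := norm_sub_le ((((2 * G ξ - 1 : ℝ) : ℂ)) - inner ℂ ξ (a ξ))
    (((2 * G (u σ ξ) - 1 : ℝ) : ℂ) - inner ℂ ξ (a ξ))
  rw [sub_sub_sub_cancel_right, ← Complex.ofReal_sub, Complex.norm_real, Real.norm_eq_abs] at t3
  have t4 := le_abs_self ((2 * G ξ - 1) - (2 * G (u σ ξ) - 1))
  linarith

end Vale.Agent.P078
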