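import Mathlib.Analysis.InnerProductSpace.PiL2
import Vale.Agent.P078.Colour
import Vale.Agent.P078.Limit

/-! So-paving over diffuse maximal abelian subalgebras of `B(H)`. -/

namespace Vale.Agent.P078

open Filter Topology

variable {H : Type*} [NormedAddCommGroup H] [InnerProductSpace ℂ H] [CompleteSpace H]
  {A : StarSubalgebra ℂ (H →L[ℂ] H)}

/-- The matrix entries of `x` with respect to a partition. -/
noncomputable def Part.entry (P : Part A) (x : H →L[ℂ] H) (v w : H) (p : Fin P.n × Fin P.n) : ℂ :=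
  inner ℂ (P.c p.1 v) (x (P.c p.2 w))

lemma Part.sum_entry_sq_le (P : Part A) (x : H →L[ℂ] H) {v w : H} {η : ℝ}
    (h : ∀ i, ‖P.c i v‖ ^ 2 ≤ η) :
    ∑ p, ‖P.entry x v w p‖ ^ 2 ≤ η * (‖x‖ ^ 2 * ‖w‖ ^ 2) := by
  rw [Fintype.sum_prod_type, Finset.sum_comm]
  have hj : ∀ j, ∑ i, ‖P.entry x v w (i, j)‖ ^ 2 ≤ η * (‖x‖ ^ 2 * ‖P.c j w‖ ^ 2) := by
    intro j
    rcases Nat.eq_zero_or_pos P.n with hn | hn
    · exact absurd j.isLt (by omega)
    have hη : 0 ≤ η := (sq_nonneg _).trans (h ⟨0, hn⟩)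
    calc ∑ i, ‖P.entry x v w (i, j)‖ ^ 2 ≤ ∑ i, η * ‖P.c i (x (P.c j w))‖ ^ 2 := by
          refine Finset.sum_le_sum fun i _ => ?_
          have e : P.entry x v w (i, j) = inner ℂ (P.c i v) (P.c i (x (P.c j w))) := by
            have e2 : ∀ u z : H, inner ℂ (P.c i u) z = (inner ℂ u (P.c i z) : ℂ) :=
              (P.proj i).isSelfAdjoint.isSymmetric
            rw [← e2, proj_apply _ (P.proj i)]
            rfl
          rw [e]
          refine (pow_le_pow_left₀ (norm_nonneg _) (norm_inner_le_norm _ _) 2).trans ?_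
          rw [mul_pow]
          exact mul_le_mul_of_nonneg_right (h i) (sq_nonneg _)
      _ = η * ‖x (P.c j w)‖ ^ 2 := by rw [← Finset.mul_sum, P.sum_norm_sq]
      _ ≤ η * (‖x‖ ^ 2 * ‖P.c j w‖ ^ 2) := by
          refine mul_le_mul_of_nonneg_left ?_ hη
          rw [← mul_pow]
          exact pow_le_pow_left₀ (norm_nonneg _) (x.le_opNorm _) 2
  refine (Finset.sum_le_sum fun j _ => hj j).trans (le_of_eq ?_)
  rw [← Finset.mul_sum, ← Finset.mul_sum, P.sum_norm_sq]

/-- The classes of a colouring. -/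
noncomputable def Part.cls (P : Part A) {r : ℕ} (col : Fin P.n → Fin r) (k : Fin r) : H →L[ℂ] H :=
  ∑ i, if col i = k then P.c i else 0

lemma Part.cls_mul (P : Part A) {r : ℕ} (col : Fin P.n → Fin r) (k l : Fin r) :
    P.cls col k * P.cls col l = if k = l then P.cls col k else 0 := by
  classical
  have h1 : ∀ i, (if col i = k then P.c i else 0) * P.cls col l
      = if col i = k then (if col i = l then P.c i else 0) else 0 := fun i => by
    by_cases hk : col i = k
    · rw [if_pos hk, if_pos hk, Part.cls, Finset.mul_sum, Finset.sum_eq_single i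
        (fun j _ hj => by split <;> simp [P.orth i j (Ne.symm hj)]) (by simp)]
      split <;> simp [(P.proj i).isIdempotentElem.eq]
    · rw [if_neg hk, if_neg hk, zero_mul]
  conv_lhs => rw [Part.cls, Finset.sum_mul]
  simp only [h1]
  by_cases hkl : k = l
  · subst hkl
    rw [if_pos rfl]
    refine Finset.sum_congr rfl fun i _ => ?_
    split <;> simp_all
  · rw [if_neg hkl]
    refine Finset.sum_eq_zero fun i _ => ?_
    split <;> [simp_all; rfl]

lemma Part.isStarProjection_cls (P : Part A) {r : ℕ} (col : Fin P.n → Fin r) (k : Fin r) :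
    IsStarProjection (P.cls col k) := by
  refine ⟨by rw [IsIdempotentElem, P.cls_mul, if_pos rfl], ?_⟩
  rw [IsSelfAdjoint, Part.cls, star_sum]
  refine Finset.sum_congr rfl fun i _ => ?_
  split
  · exact (P.proj i).isSelfAdjoint.star_eq
  · exact star_zero _

lemma Part.inner_pinch (P : Part A) {r : ℕ} [NeZero r] (col : Fin P.n → Fin r) (x : H →L[ℂ] H)
    (v w : H) : (inner ℂ v ((∑ k, P.cls col k * x * P.cls col k) w) : ℂ)
      = ∑ p, (coin col p : ℂ) * P.entry x v w p
        + (1 - 1 / (r : ℂ)) * inner ℂ v (P.diag x w) + 1 / (r : ℂ) * inner ℂ v (x w) := by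
  classical
  have hsym : ∀ i (u : H), (inner ℂ v (P.c i u) : ℂ) = inner ℂ (P.c i v) u := fun i u =>
    ((P.proj i).isSelfAdjoint.isSymmetric v u).symm
  have h1 : (inner ℂ v ((∑ k, P.cls col k * x * P.cls col k) w) : ℂ)
      = ∑ p : Fin P.n × Fin P.n, (if col p.1 = col p.2 then (1 : ℂ) else 0) * P.entry x v w p := by
    simp only [sum_apply, mul_apply_eq_comp, inner_sum, Fintype.sum_prod_type]
    calc ∑ k, (inner ℂ v (P.cls col k (x (P.cls col k w))) : ℂ)
        = ∑ k, ∑ j, ∑ i, (if col i = k then (1 : ℂ) else 0) * (if col j = k then (1 : ℂ) else 0)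
            * P.entry x v w (i, j) := by
          refine Finset.sum_congr rfl fun k _ => ?_
          simp only [Part.cls, sum_apply, inner_sum, map_sum]
          refine Finset.sum_congr rfl fun j _ => Finset.sum_congr rfl fun i _ => ?_
          by_cases hi : col i = k <;> by_cases hj : col j = k <;> simp [hi, hj, Part.entry, hsym]
      _ = _ := by
          rw [Finset.sum_comm, Finset.sum_comm (γ := Fin P.n) (s := Finset.univ) (t := Finset.univ)
            (f := fun i j => (if col i = col j then (1 : ℂ) else 0) * P.entry x v w (i, j))]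
          refine Finset.sum_congr rfl fun j _ => ?_
          rw [Finset.sum_comm]
          refine Finset.sum_congr rfl fun i _ => ?_
          rw [← Finset.sum_mul]
          congr 1
          simp [eq_comm]
  have h2 : (inner ℂ v (x w) : ℂ) = ∑ p : Fin P.n × Fin P.n, P.entry x v w p := by
    simp only [Fintype.sum_prod_type, Part.entry, ← inner_sum, ← sum_inner, ← map_sum, ← sum_apply,
      P.sum, one_apply_eq_self]
  have h3 : (inner ℂ v (P.diag x w) : ℂ)
      = ∑ p : Fin P.n × Fin P.n, (if p.1 = p.2 then (1 : ℂ) else 0) * P.entry x v w p := by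
    simp only [Part.diag, sum_apply, mul_apply_eq_comp, inner_sum, Fintype.sum_prod_type, ite_mul,
      one_mul, zero_mul, Finset.sum_ite_eq, Finset.mem_univ, if_true, Part.entry, hsym]
  rw [h1, h2, h3, Finset.mul_sum, Finset.mul_sum, ← Finset.sum_add_distrib,
    ← Finset.sum_add_distrib]
  refine Finset.sum_congr rfl fun p _ => ?_
  by_cases hp : p.1 = p.2
  · simp only [coin, hp, if_true, Complex.ofReal_zero]; ring
  · simp only [coin, if_neg hp]
    split <;> push_cast <;> ring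

lemma sum_norm_sq_coin_le {n r : ℕ} [NeZero r] (m : Fin n × Fin n → ℂ) :
    ∑ col : Fin n → Fin r, ‖∑ p, (coin col p : ℂ) * m p‖ ^ 2
      ≤ (Fintype.card (Fin n → Fin r) : ℝ) * (2 * ∑ p, ‖m p‖ ^ 2) := by
  set N : ℝ := (Fintype.card (Fin n → Fin r) : ℝ) with hN
  have hm : ∑ p, ‖m p‖ ^ 2 = ∑ p, (m p).re ^ 2 + ∑ p, (m p).im ^ 2 := by
    rw [← Finset.sum_add_distrib]
    refine Finset.sum_congr rfl fun p _ => ?_
    rw [Complex.sq_norm, Complex.normSq_apply, sq, sq]
  have e : ∀ col : Fin n → Fin r, ‖∑ p, (coin col p : ℂ) * m p‖ ^ 2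
      = (∑ p, coin col p * (m p).re) ^ 2 + (∑ p, coin col p * (m p).im) ^ 2 := fun col => by
    rw [Complex.sq_norm, Complex.normSq_apply, Complex.re_sum, Complex.im_sum, sq, sq]
    simp only [Complex.re_ofReal_mul, Complex.im_ofReal_mul]
  rw [Finset.sum_congr rfl fun col _ => e col, Finset.sum_add_distrib, hm]
  have h1 := sum_sq_coin_le (r := r) fun p => (m p).re
  have h2 := sum_sq_coin_le (r := r) fun p => (m p).im
  rw [← hN] at h1 h2
  linarith

lemma exists_all_small {Ω ι : Type*} [Fintype Ω] [Nonempty Ω] [Fintype ι] (F : Ω → ι → ι → ℝ)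
    (h0 : ∀ w a a', 0 ≤ F w a a') {B : ℝ}
    (h : ∀ a a', ∑ w, F w a a' ≤ (Fintype.card Ω : ℝ) * B) :
    ∃ w, ∀ a a', F w a a' ≤ (Fintype.card ι : ℝ) ^ 2 * B := by
  have htot : ∑ w, ∑ a, ∑ a', F w a a' ≤ ∑ _w : Ω, (Fintype.card ι : ℝ) ^ 2 * B := by
    rw [Finset.sum_comm]
    refine (Finset.sum_le_sum fun a _ => show ∑ w, ∑ a', F w a a'
      ≤ (Fintype.card ι : ℝ) * ((Fintype.card Ω : ℝ) * B) from ?_).trans (le_of_eq ?_)
    · rw [Finset.sum_comm]
      refine (Finset.sum_le_sum fun a' _ => h a a').trans (le_of_eq ?_)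
      simp
    · simp only [Finset.sum_const, Finset.card_univ, nsmul_eq_mul]
      ring
  obtain ⟨w, -, hw⟩ := Finset.exists_le_of_sum_le Finset.univ_nonempty htot
  exact ⟨w, fun a a' => ((Finset.single_le_sum (fun a' _ => h0 w a a')
    (Finset.mem_univ a')).trans (Finset.single_le_sum
      (fun a _ => Finset.sum_nonneg fun a' _ => h0 w a a') (Finset.mem_univ a))).trans hw⟩

/-- A colouring with small centred sums. -/
lemma Part.exists_colouring (P : Part A) (r : ℕ) [NeZero r] {ι : Type*} [Fintype ι]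
    (x : H →L[ℂ] H) (b : ι → H) (hb : ∀ a, ‖b a‖ = 1) {η : ℝ}
    (hη : ∀ a i, ‖P.c i (b a)‖ ^ 2 ≤ η) :
    ∃ col : Fin P.n → Fin r, ∀ a a',
      ‖∑ p, (coin col p : ℂ) * P.entry x (b a) (b a') p‖ ^ 2
        ≤ (Fintype.card ι : ℝ) ^ 2 * (2 * (η * ‖x‖ ^ 2)) := by
  refine exists_all_small (fun (col : Fin P.n → Fin r) a a' =>
    ‖∑ p, (coin col p : ℂ) * P.entry x (b a) (b a') p‖ ^ 2) (fun _ _ _ => sq_nonneg _) fun a a' => ?_
  have h1 := sum_norm_sq_coin_le (r := r) (fun p => P.entry x (b a) (b a') p)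
  have h2 := P.sum_entry_sq_le x (w := b a') (hη a)
  rw [hb, one_pow, mul_one] at h2
  exact h1.trans (mul_le_mul_of_nonneg_left (mul_le_mul_of_nonneg_left h2 zero_le_two)
    (Nat.cast_nonneg _))

/-- For every diffuse maximal abelian subalgebra of `B(H)`, any number of pieces above `1/ε`
suffices for `(ε, r)` so-paving. -/
theorem soPavable_of_diffuse (hA : IsMasa A) (hd : IsDiffuse A) {x : H →L[ℂ] H}
    (hx : IsSelfAdjoint x) {ε : ℝ} {r : ℕ} (hr : 1 < ε * r) : SoPavable A x ε r := by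
  classical
  intro F δ hδ
  have hr0 : r ≠ 0 := by rintro rfl; norm_num at hr
  have : NeZero r := ⟨hr0⟩
  set W := Submodule.span ℂ (F : Set H) with hW
  have : FiniteDimensional ℂ W := FiniteDimensional.span_finset ℂ F
  set bb := stdOrthonormalBasis ℂ W
  set b : Fin (Module.finrank ℂ W) → H := fun a => (bb a : H) with hbdef
  have hb : ∀ a, ‖b a‖ = 1 := fun a => bb.orthonormal.1 a
  set q := W.starProjection with hq
  have hqF : ∀ ξ ∈ F, ‖(1 - q) ξ‖ < δ := fun ξ hξ => by
    rw [sub_apply, one_apply_eq_self, hq,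
      Submodule.starProjection_eq_self_iff.2 (Submodule.subset_span hξ), sub_self, norm_zero]
    exact hδ
  obtain ⟨U, T, hTA, hTs, hTn, hev, hlim⟩ := exists_diag_limit hA hx
  set c : ℝ := 1 - 1 / (r : ℝ) with hc
  have hr1 : (1 : ℝ) ≤ r := by exact_mod_cast Nat.one_le_iff_ne_zero.2 hr0
  have hc0 : 0 ≤ c := sub_nonneg.2 ((div_le_one (by linarith)).2 hr1)
  have hc1 : c ≤ 1 := sub_le_self _ (by positivity)
  rcases eq_or_ne x 0 with rfl | hx0
  · refine ⟨fun k => if k = 0 then 1 else 0, 0, q, fun k => ?_, fun i j hij => ?_, by simp,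
      zero_mem A, IsSelfAdjoint.zero _, by simp, isStarProjection_starProjection, hqF, by simp⟩
    · dsimp only; split
      · exact ⟨one_mem A, IsStarProjection.one _⟩
      · exact ⟨zero_mem A, IsStarProjection.zero _⟩
    · by_cases h : i = 0
      · subst h; simp [if_neg (Ne.symm hij)]
      · simp [if_neg h]
  set K : ℝ := (Module.finrank ℂ W : ℝ) with hK
  have hgap : 0 < ε - 1 / (r : ℝ) := by
    rw [sub_pos, div_lt_iff₀ (by linarith)]; exact hr
  set κ := (ε - 1 / (r : ℝ)) * ‖x‖ / (K ^ 2 + 1) with hκ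
  have hx' : 0 < ‖x‖ := norm_pos_iff.2 hx0
  have hκ0 : 0 < κ := by positivity
  set η := (κ / 2) ^ 2 / (2 * (K ^ 2 + 1) * ‖x‖ ^ 2) with hη
  have hη0 : 0 < η := by positivity
  choose s hs using fun a => hA.exists_fine hd (b a) hη0
  have hclose : ∀ᶠ P in (U : Filter (Part A)), ∀ a a',
      ‖(inner ℂ (b a) (P.diag x (b a')) : ℂ) - inner ℂ (b a) (T (b a'))‖ ≤ κ / 2 := by
    simp only [eventually_all]
    exact fun a a' => (tendsto_iff_norm_sub_tendsto_zero.1 (hlim (b a) (b a'))).eventually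
      (eventually_le_nhds (half_pos hκ0))
  obtain ⟨P, hP1, hP2⟩ := ((hev (Finset.univ.biUnion s)).and hclose).exists
  obtain ⟨col, hcol⟩ := P.exists_colouring r x b hb (η := η) fun a i =>
    hs a P (fun e he => hP1 e (Finset.mem_biUnion.2 ⟨a, Finset.mem_univ _, he⟩)) i
  refine ⟨P.cls col, (c : ℂ) • T, q, fun k => ⟨sum_mem fun i _ => ?_, P.isStarProjection_cls col k⟩,
    fun i j hij => by rw [P.cls_mul, if_neg hij], ?_, A.smul_mem hTA _, ?_, ?_,
    isStarProjection_starProjection, hqF, ?_⟩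
  · split
    · exact P.mem i
    · exact zero_mem A
  · simp only [Part.cls]
    rw [Finset.sum_comm]
    simpa using P.sum
  · rw [IsSelfAdjoint, star_smul, hTs.star_eq, Complex.star_def, Complex.conj_ofReal]
  · rw [norm_smul, Complex.norm_real, Real.norm_of_nonneg hc0]
    exact (mul_le_of_le_one_left (norm_nonneg _) hc1).trans hTn
  set S := ∑ k, P.cls col k * x * P.cls col k
  set y := S - (c : ℂ) • T - (1 / (r : ℂ)) • x with hy
  have hentry : ∀ a a', ‖(inner ℂ (b a) (y (b a')) : ℂ)‖ ≤ κ := by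
    intro a a'
    have e : (inner ℂ (b a) (y (b a')) : ℂ)
        = ∑ p, (coin col p : ℂ) * P.entry x (b a) (b a') p
          + (c : ℂ) * (inner ℂ (b a) (P.diag x (b a')) - inner ℂ (b a) (T (b a'))) := by
      simp only [hy, sub_apply, smul_apply, inner_sub_right, inner_smul_right]
      rw [P.inner_pinch]
      simp only [hc]
      push_cast
      ring
    rw [e]
    refine (norm_add_le _ _).trans ?_
    have h1 : ‖∑ p, (coin col p : ℂ) * P.entry x (b a) (b a') p‖ ≤ κ / 2 := by
      refine (pow_le_pow_iff_left₀ (norm_nonneg _) (by positivity) two_ne_zero).1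
        ((hcol a a').trans ?_)
      rw [Fintype.card_fin, hη, ← hK]
      calc K ^ 2 * (2 * ((κ / 2) ^ 2 / (2 * (K ^ 2 + 1) * ‖x‖ ^ 2) * ‖x‖ ^ 2))
          = (κ / 2) ^ 2 * (K ^ 2 / (K ^ 2 + 1)) := by field_simp
        _ ≤ (κ / 2) ^ 2 :=
          mul_le_of_le_one_right (sq_nonneg _) ((div_le_one (by positivity)).2 (by linarith))
    have h2 : ‖(c : ℂ) * ((inner ℂ (b a) (P.diag x (b a')) : ℂ) - inner ℂ (b a) (T (b a')))‖
        ≤ κ / 2 := by
      rw [norm_mul, Complex.norm_real, Real.norm_of_nonneg hc0]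
      exact (mul_le_of_le_one_left (norm_nonneg _) hc1).trans (hP2 a a')
    linarith
  have hqsum : ∀ u, q u = ∑ a, (inner ℂ (b a) u : ℂ) • b a := fun u => by
    rw [hq, bb.starProjection_eq_sum_rankOne]
    simp [hbdef, sum_apply, InnerProductSpace.rankOne_apply]
  have hqyq : ‖q * y * q‖ ≤ K ^ 2 * κ := by
    refine ContinuousLinearMap.opNorm_le_bound _ (by positivity) fun v => ?_
    rw [mul_apply_eq_comp, mul_apply_eq_comp, hqsum (y (q v))]
    refine (norm_sum_le _ _).trans ((Finset.sum_le_sum fun a _ => show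
      ‖(inner ℂ (b a) (y (q v)) : ℂ) • b a‖ ≤ K * (κ * ‖v‖) from ?_).trans (le_of_eq ?_))
    · rw [norm_smul, hb, mul_one, hqsum v, map_sum, inner_sum]
      refine (norm_sum_le _ _).trans ((Finset.sum_le_sum fun a' _ => show
        ‖(inner ℂ (b a) (y ((inner ℂ (b a') v : ℂ) • b a')) : ℂ)‖ ≤ κ * ‖v‖ from ?_).trans
        (le_of_eq (by simp [hK])))
      rw [map_smul, inner_smul_right, norm_mul, mul_comm]
      refine mul_le_mul (hentry a a') ((norm_inner_le_norm _ _).trans ?_) (norm_nonneg _) hκ0.le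
      rw [hb, one_mul]
    · simp [hK]; ring
  have esplit : q * (S - (c : ℂ) • T) * q = q * y * q + (1 / (r : ℂ)) • (q * x * q) := by
    simp only [hy, mul_sub, sub_mul, mul_smul_comm, smul_mul_assoc]
    abel
  rw [esplit]
  refine (norm_add_le _ _).trans ((add_le_add hqyq (le_of_eq (norm_smul _ _))).trans ?_)
  have hqn : ‖q * x * q‖ ≤ ‖x‖ := by
    have h1 : ‖q‖ ≤ 1 := Submodule.starProjection_norm_le W
    refine (norm_mul_le _ _).trans ((mul_le_of_le_one_right (norm_nonneg _) h1).trans ?_)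
    exact (norm_mul_le _ _).trans (mul_le_of_le_one_left (norm_nonneg _) h1)
  have h3 : K ^ 2 * κ ≤ (ε - 1 / (r : ℝ)) * ‖x‖ := by
    rw [hκ, mul_div_assoc', div_le_iff₀ (by positivity)]
    nlinarith [mul_pos hgap hx']
  have h4 : ‖1 / (r : ℂ)‖ = 1 / (r : ℝ) := by simp
  rw [h4]
  have h5 := mul_le_mul_of_nonneg_left hqn (show (0 : ℝ) ≤ 1 / (r : ℝ) by positivity)
  linarith

end Vale.Agent.P078
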